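import Vale.Agent.P301.H599.Stmt

/-! # P301: tensors with values in the powers of a line bundle: definitions -/

open scoped Manifold ContDiff ComplexOrder Topology
open Filter

noncomputable section

namespace Vale.Agent.P301.R2.H256

open Vale.Agent.P272.K Vale.Agent.P301.H599

variable {d : ℕ} {X : Type} [TopologicalSpace X] [ChartedSpace (Cm d) X] {ι : Type}

/-- The line bundle `L` with the smooth metric `ρ` of curvature `θ` is nef (for every `ε > 0` there
is a smooth function `u` with `θ + ε w + i∂∂̄u ≥ 0`), `∫ θ^d = 0`, and `c₁(L) ≠ 0`. -/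
structure IsNefIsotropic (w : Chart d X → Cm d → Matrix (Fin d) (Fin d) ℂ) (L : LineBundle d X ι)
    (ρ : ι → X → ℝ) : Prop where
  nef : ∀ ε : ℝ, 0 < ε → ∃ u : X → ℝ, Smooth (d := d) u ∧ ∀ e x, At e x →
    (curvature L ρ e (e x) + (ε : ℂ) • w e (e x) + ddc u e (e x)).PosSemidef
  top : IsIntegral (fun (e : Chart d X) z => (curvature L ρ e z).det.re) 0
  ne : ¬ SameClass (curvature L ρ) (fun _ _ => 0)

/-- `σ` is a holomorphic section of `(Ω¹)^{⊗p} ⊗ L^m`: in the chart `e` with coordinates `z` and on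
the member `U i` of the cocycle of `L` it is `∑ σ_I dz_{I 1} ⊗ ... ⊗ dz_{I p}`. -/
structure IsTensor (L : LineBundle d X ι) (p m : ℕ)
    (σ : ι → Chart d X → Cm d → (Fin p → Fin d) → ℂ) : Prop where
  holo : ∀ i e x, At e x → x ∈ L.U i → ∀ I, AnalyticAt ℂ (fun z => σ i e z I) (e x)
  changeL : ∀ i j e x, At e x → x ∈ L.U i → x ∈ L.U j → ∀ I,
    σ i e (e x) I = L.g i j x ^ m * σ j e (e x) I
  changeX : ∀ i e e' x, At e x → At e' x → x ∈ L.U i → ∀ I,
    σ i e (e x) I = ∑ J : Fin p → Fin d, (∏ a, jacM e e' x (J a) (I a)) * σ i e' (e' x) J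

/-- `σ` is a holomorphic `p`-form with values in `L^m`: a section of `(Ω¹)^{⊗p} ⊗ L^m` which is
alternating. -/
def IsTwistedForm (L : LineBundle d X ι) (p m : ℕ)
    (σ : ι → Chart d X → Cm d → (Fin p → Fin d) → ℂ) : Prop :=
  IsTensor L p m σ ∧ ∀ i e x, At e x → x ∈ L.U i → ∀ (τ : Equiv.Perm (Fin p)) I,
    σ i e (e x) (I ∘ τ) = ((Equiv.Perm.sign τ : ℤ) : ℂ) * σ i e (e x) I

/-- The sections `σ b` are linearly independent. -/
def Independent (L : LineBundle d X ι) {p r : ℕ}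
    (σ : Fin r → ι → Chart d X → Cm d → (Fin p → Fin d) → ℂ) : Prop :=
  ∀ c : Fin r → ℂ, (∀ i e x, At e x → x ∈ L.U i → ∀ I, ∑ b, c b * σ b i e (e x) I = 0) → c = 0

/-- The values of the sections `σ b` are linearly dependent at every point. -/
def PointwiseDependent (L : LineBundle d X ι) {p r : ℕ}
    (σ : Fin r → ι → Chart d X → Cm d → (Fin p → Fin d) → ℂ) : Prop :=
  ∀ i e x, At e x → x ∈ L.U i → ∃ c : Fin r → ℂ, c ≠ 0 ∧ ∀ I, ∑ b, c b * σ b i e (e x) I = 0

/-- `f` is a holomorphic section of `L^k`. -/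
def Sec (L : LineBundle d X ι) (k : ℕ) (f : ι → X → ℂ) : Prop :=
  (∀ i (e : Chart d X) x, At e x → x ∈ L.U i → AnalyticAt ℂ (fun z => f i (e.symm z)) (e x)) ∧
    ∀ i j x, x ∈ L.U i → x ∈ L.U j → f i x = L.g i j x ^ k * f j x

/-- The sections `f` and `g` are linearly independent. -/
def Indep2 (L : LineBundle d X ι) (f g : ι → X → ℂ) : Prop :=
  ∀ α β : ℂ, (∀ i x, x ∈ L.U i → α * f i x + β * g i x = 0) → α = 0 ∧ β = 0

/-- The sections `f` and `g` of a power of `L` have no common factor at any point (if `f = h a` and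
`g = h b` near `x` with `h` holomorphic, then `h` is not zero at `x`): their divisors have no common
component. -/
def NoCommonDivisor (L : LineBundle d X ι) (f g : ι → X → ℂ) : Prop :=
  ∀ i (e : Chart d X) x, At e x → x ∈ L.U i → ∀ h a b : Cm d → ℂ, AnalyticAt ℂ h (e x) →
    (∀ᶠ z in 𝓝 (e x), f i (e.symm z) = h z * a z ∧ g i (e.symm z) = h z * b z) → h (e x) ≠ 0

end Vale.Agent.P301.R2.H256
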