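import Vale.Agent.P301.H450.Mobile
import Vale.Agent.P301.H599.ZL.Iso
import Vale.Agent.P301.R2.H256.Defs
import Vale.Agent.P301.R2.H256.Lin

/-! # P301: tensors with values in the powers of a nef isotropic line bundle -/

open scoped Manifold ContDiff ComplexOrder Topology Matrix
open MeasureTheory Set Filter
open Vale.Agent.P272.K Vale.Agent.P301.H599 Vale.Agent.P301.H450
open Vale.Agent.P301.H724 (IsSec Nz Prop2 HasSec lamPow wedge mnr LinInd)

set_option linter.all false

noncomputable section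

namespace Vale.Agent.P301.R2.H256

/-- minors of linearly dependent vectors -/
theorem mnr_eq_zero {A : Type} {r : ℕ} {v : Fin r → A → ℂ} {c : Fin r → ℂ} (hc : c ≠ 0)
    (h : ∀ I, ∑ b, c b * v b I = 0) (k : Fin r → A) : mnr v k = 0 := by
  unfold mnr
  refine Matrix.exists_mulVec_eq_zero_iff.1 ⟨c, hc, ?_⟩
  funext a
  simp only [Matrix.mulVec, dotProduct, Matrix.of_apply, Pi.zero_apply]
  rw [← h (k a)]
  exact Finset.sum_congr rfl fun b _ => mul_comm _ _

variable {d : ℕ} {X : Type} [TopologicalSpace X] [ChartedSpace (Cm d) X]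
  {w s : Chart d X → Cm d → Matrix (Fin d) (Fin d) ℂ} {ι : Type}
  {L : LineBundle d X ι} {ρ : ι → X → ℝ} {m p r k : ℕ}

theorem IsTensor.isSec {σ : ι → Chart d X → Cm d → (Fin p → Fin d) → ℂ} (h : IsTensor L p m σ) :
    IsSec L (lamPow p (cot (d := d) (X := X))) m σ where
  holo i e x hx hi I := h.holo i e x hx hi I
  chL i j e x hx hi hj := by
    funext I
    rw [h.changeL i j e x hx hi hj I]
    rfl
  chV i e e' x hx hx' hi := by
    funext I
    rw [h.changeX i e e' x hx hx' hi I]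
    rfl

theorem IsNefIsotropic.not_exact (h : IsNefIsotropic w L ρ) : ¬ IsExact (curvature L ρ) := fun h0 => by
  obtain ⟨u, hu, hue⟩ := h0
  exact h.ne ⟨u, hu, fun e x hx => by rw [hue e x hx, zero_add]⟩

theorem pos_of_not_exact {a : Chart d X → Cm d → Matrix (Fin d) (Fin d) ℂ} (h : ¬ IsExact a) :
    0 < d := by
  rcases Nat.eq_zero_or_pos d with rfl | hd
  · exfalso
    refine h ⟨fun _ => 0, fun e x hx => contDiffAt_const, fun e x hx => ?_⟩
    ext i
    exact i.elim0
  · exact hd

section converse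

/-- a section of `L^k` as a tensor of degree zero -/
def tz (f : ι → X → ℂ) : ι → Chart d X → Cm d → (Fin 0 → Fin d) → ℂ := fun i e z _ => f i (e.symm z)

theorem isTensor_tz {f : ι → X → ℂ} (hf : Sec L k f) : IsTensor L 0 k (tz f) where
  holo i e x hx hi I := hf.1 i e x hx hi
  changeL i j e x hx hi hj I := by
    show f i (e.symm (e x)) = L.g i j x ^ k * f j (e.symm (e x))
    rw [e.left_inv hx.2]
    exact hf.2 i j x hi hj
  changeX i e e' x hx hx' hi I := by
    show f i (e.symm (e x)) = ∑ J : Fin 0 → Fin d, (∏ a, jacM e e' x (J a) (I a)) *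
      f i (e'.symm (e' x))
    rw [e.left_inv hx.2, e'.left_inv hx'.2]
    simp

theorem dependent_of_two {f g : ι → X → ℂ} (hf : Sec L k f) (hg : Sec L k g)
    (hi : Indep2 L f g) : ∃ (p m r : ℕ) (σ : Fin r → ι → Chart d X → Cm d → (Fin p → Fin d) → ℂ),
      (∀ b, IsTensor L p m (σ b)) ∧ Independent L σ ∧ PointwiseDependent L σ := by
  refine ⟨0, k, 2, ![tz f, tz g], ?_, ?_, ?_⟩
  · intro b
    fin_cases b
    · exact isTensor_tz hf
    · exact isTensor_tz hg
  · intro c hc
    have h1 := hi (c 0) (c 1) fun i x hx => by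
      have he := H724.at_chartAt (d := d) x
      have h2 := hc i _ x he hx Fin.elim0
      rw [Fin.sum_univ_two] at h2
      have h3 : (chartAt (Cm d) x).symm (chartAt (Cm d) x x) = x :=
        (chartAt (Cm d) x).left_inv he.2
      have h4 : c 0 * f i ((chartAt (Cm d) x).symm (chartAt (Cm d) x x)) +
          c 1 * g i ((chartAt (Cm d) x).symm (chartAt (Cm d) x x)) = 0 := h2
      rwa [h3] at h4
    funext b
    fin_cases b
    · exact h1.1
    · exact h1.2
  · intro i e x hx hxi
    by_cases h0 : f i (e.symm (e x)) = 0 ∧ g i (e.symm (e x)) = 0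
    · refine ⟨![1, 0], fun h => ?_, fun I => ?_⟩
      · have := congrFun h 0
        simp at this
      · rw [Fin.sum_univ_two]
        show (1 : ℂ) * f i (e.symm (e x)) + 0 * g i (e.symm (e x)) = 0
        rw [h0.1]; ring
    · refine ⟨![g i (e.symm (e x)), -f i (e.symm (e x))], fun h => h0 ?_, fun I => ?_⟩
      · have h1 := congrFun h 0
        have h2 := congrFun h 1
        simp at h1 h2
        exact ⟨h2, h1⟩
      · rw [Fin.sum_univ_two]
        show g i (e.symm (e x)) * f i (e.symm (e x)) + -f i (e.symm (e x)) * g i (e.symm (e x)) = 0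
        ring

theorem tensors_of_sec (hk : 0 < k) {f : ι → X → ℂ} (hf : Sec L k f)
    (hne : ∃ i x, x ∈ L.U i ∧ f i x ≠ 0) :
    ∃ p, ∀ N : ℕ, ∃ (m : ℕ) (σ : ι → Chart d X → Cm d → (Fin p → Fin d) → ℂ), N ≤ m ∧
      IsTensor L p m σ ∧ ∃ i e x, At e x ∧ x ∈ L.U i ∧ ∃ I, σ i e (e x) I ≠ 0 := by
  refine ⟨0, fun N => ⟨k * N, tz fun i x => f i x ^ N, Nat.le_mul_of_pos_left N hk,
    isTensor_tz ⟨fun i e x hx hi => (hf.1 i e x hx hi).pow N, fun i j x hi hj => ?_⟩, ?_⟩⟩
  · show f i x ^ N = L.g i j x ^ (k * N) * f j x ^ N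
    rw [hf.2 i j x hi hj, mul_pow, pow_mul]
  · obtain ⟨i, x, hi, h0⟩ := hne
    have he := H724.at_chartAt (d := d) x
    refine ⟨i, _, x, he, hi, Fin.elim0, ?_⟩
    show f i ((chartAt (Cm d) x).symm (chartAt (Cm d) x x)) ^ N ≠ 0
    rw [(chartAt (Cm d) x).left_inv he.2]
    exact pow_ne_zero _ h0

end converse

variable [IsManifold 𝓘(ℂ, Cm d) ω X] [T2Space X] [CompactSpace X]
  [SimplyConnectedSpace X]

theorem IsNefIsotropic.q_zero (hs : IsSymplectic d X w s) (hρ : IsMetric L ρ)
    (h : IsNefIsotropic w L ρ) : q s (curvature L ρ) (curvature L ρ) = 0 :=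
  H599.ZL.q_eq_zero_of_int (pos_of_not_exact h.not_exact) hs (isReal11_curvature' hρ) h.nef
    (INT.intX_eq_of_isIntegral h.top)

/-- **Mobile pencils from pointwise dependent tensors.** -/
theorem mobile_of_dependent (h : IsSymplectic d X w s) (hρ : IsMetric L ρ)
    (hL : IsNefIsotropic w L ρ) {σ : Fin r → ι → Chart d X → Cm d → (Fin p → Fin d) → ℂ}
    (hσ : ∀ b, IsTensor L p m (σ b)) (hind : Independent L σ) (hdep : PointwiseDependent L σ) :
    ∃ k, 0 < k ∧ HasMobilePair L k := by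
  have hnex := hL.not_exact
  have hd := pos_of_not_exact hnex
  have hq := hL.q_zero h hρ
  have hli : LinInd L σ := by
    intro t ht
    refine hind t fun i e x hx hi I => ?_
    have h1 := congrFun (ht i e x hx hi) I
    simpa only [Finset.sum_apply, Pi.smul_apply, smul_eq_mul, Pi.zero_apply] using h1
  obtain ⟨r', σ₀, σ₁, -, -, h0, h1, n0, n1, hp, hC⟩ :=
    H724.exists_prop_pair (u := σ) (fun b => (hσ b).isSec) hli fun i e x hx hi => by
      obtain ⟨c, hc, hc0⟩ := hdep i e x hx hi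
      funext a
      exact mnr_eq_zero hc hc0 a
  refine special_mobile (mm := fun _ => r' * m) (σ := ![σ₀, σ₁]) hd h ((isNeg_ten p).lamPow r') hρ
    hL.nef hq hnex (fun k => ?_) (fun k l => ?_) (fun k => ?_) rfl fun α β hαβ => ?_
  · fin_cases k
    · exact h0
    · exact h1
  · fin_cases k <;> fin_cases l
    · exact fun i e x he hi c c' => mul_comm _ _
    · exact fun i e x he hi c c' => by
        have := hp i e x he hi c c'
        show σ₀ i e (e x) c * σ₁ i e (e x) c' = σ₀ i e (e x) c' * σ₁ i e (e x) c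
        linear_combination -this
    · exact hp
    · exact fun i e x he hi c c' => mul_comm _ _
  · fin_cases k
    · exact n0
    · exact n1
  · have hβ : β = 0 := by
      by_contra hβ
      obtain ⟨i, e, x, he, hi, hne⟩ := hC (-α / β)
      apply hne
      have h2 := hαβ i e x he hi
      have h3 : β • σ₁ i e (e x) = -(α • σ₀ i e (e x)) := by
        rw [eq_neg_iff_add_eq_zero, add_comm]; exact h2
      have h4 : σ₁ i e (e x) = β⁻¹ • (β • σ₁ i e (e x)) := by
        rw [smul_smul, inv_mul_cancel₀ hβ, one_smul]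
      rw [h4, h3, smul_neg, smul_smul, ← neg_smul]
      congr 1
      field_simp
    subst hβ
    refine ⟨?_, rfl⟩
    by_contra hα
    obtain ⟨x, hx⟩ := n0
    obtain ⟨i, hi⟩ := L.cover x
    have he := AMP.at_chartAt (n := d) x
    have h2 := hαβ i _ x he hi
    rw [zero_smul, add_zero] at h2
    exact hx i _ he hi ((smul_eq_zero.1 h2).resolve_left hα)

/-- **Nonvanishing from tensors with values in large powers.** -/
theorem sec_of_tensors (h : IsSymplectic d X w s) (hρ : IsMetric L ρ)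
    (hL : IsNefIsotropic w L ρ)
    (hinf : ∀ N : ℕ, ∃ (m : ℕ) (σ : ι → Chart d X → Cm d → (Fin p → Fin d) → ℂ), N ≤ m ∧
      IsTensor L p m σ ∧ ∃ i e x, At e x ∧ x ∈ L.U i ∧ ∃ I, σ i e (e x) I ≠ 0) :
    ∃ k, 0 < k ∧ HasSec L k := by
  have hnex := hL.not_exact
  have hd := pos_of_not_exact hnex
  have hq := hL.q_zero h hρ
  have hp : ∀ N : ℕ, ∃ (m : ℕ) (σ : ι → Chart d X → Cm d → (Fin p → Fin d) → ℂ),
      N ≤ m ∧ IsSec L (lamPow p (cot (d := d) (X := X))) m σ ∧ ∃ x, Nz L σ x := by
    intro N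
    obtain ⟨m, σ, hm, hσ, i, e, x, he, hi, I, hI⟩ := hinf N
    exact ⟨m, σ, hm, hσ.isSec, x, hσ.isSec.nz he hi fun h0 => hI (congrFun h0 I)⟩
  obtain ⟨r, M, W, hM, hW, hne, hprop, -⟩ := H724.exists_prop_family hp
  refine special_pos (mm := ![M 1, M 0]) (σ := ![W 1, W 0]) hd h ((isNeg_ten p).lamPow r) hρ
    hL.nef hq hnex (fun k => ?_) (fun k l => ?_) (fun k => ?_) ?_
  · fin_cases k
    · exact hW 1
    · exact hW 0
  · fin_cases k <;> fin_cases l
    · exact hprop 1 1
    · exact hprop 1 0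
    · exact hprop 0 1
    · exact hprop 0 0
  · fin_cases k
    · exact hne 1
    · exact hne 0
  · show M 0 < M 1
    exact hM Nat.zero_lt_one

end Vale.Agent.P301.R2.H256
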